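import Vale.Agent.P047.H594.Odd

/-!
Products of Boolean functions of disjoint sets of variables, and their Fourier coefficients on
level `k`.
-/

open Finset Polynomial

namespace Vale.Agent.P047.H671

noncomputable section

/-- Product of two functions of disjoint sets of variables. -/
def tens {a b : ℕ} (g : Cube a → ℝ) (f : Cube b → ℝ) (x : Cube (a + b)) : ℝ :=
  g (fun i => x (Fin.castAdd b i)) * f (fun i => x (Fin.natAdd a i))

/-- left part of a set of variables -/
def sl {a b : ℕ} (S : Finset (Fin (a + b))) : Finset (Fin a) :=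
  univ.filter (fun i => Fin.castAdd b i ∈ S)

/-- right part of a set of variables -/
def sr {a b : ℕ} (S : Finset (Fin (a + b))) : Finset (Fin b) :=
  univ.filter (fun i => Fin.natAdd a i ∈ S)

theorem card_eq {a b : ℕ} (S : Finset (Fin (a + b))) :
    S.card = (sl S).card + (sr S).card := by
  have h1 : S.card = ∑ i : Fin (a + b), if i ∈ S then 1 else 0 := by simp
  rw [h1, Fin.sum_univ_add]
  unfold sl sr
  rw [Finset.card_filter, Finset.card_filter]

theorem prod_mem_eq {n : ℕ} (S : Finset (Fin n)) (g : Fin n → ℝ) :
    ∏ i ∈ S, g i = ∏ i, if i ∈ S then g i else 1 := by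
  rw [← Finset.prod_filter]
  congr 1
  ext i
  simp

theorem fourierCoeff_tens {a b : ℕ} (g : Cube a → ℝ) (f : Cube b → ℝ) (S : Finset (Fin (a + b))) :
    fourierCoeff (tens g f) S = fourierCoeff g (sl S) * fourierCoeff f (sr S) := by
  unfold fourierCoeff
  rw [div_mul_div_comm, ← pow_add, Finset.sum_mul_sum]
  congr 1
  rw [← Fintype.sum_prod_type']
  symm
  refine Fintype.sum_equiv (Fin.appendEquiv a b) _ _ ?_
  rintro ⟨y, z⟩
  have h1 : ∏ i ∈ S, (((Fin.appendEquiv a b (y, z)) i : ℤ) : ℝ) =
      (∏ i ∈ sl S, ((y i : ℤ) : ℝ)) * ∏ i ∈ sr S, ((z i : ℤ) : ℝ) := by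
    rw [prod_mem_eq, Fin.prod_univ_add, prod_mem_eq (sl S), prod_mem_eq (sr S)]
    simp [sl, sr, Fin.appendEquiv]
  rw [h1]
  have h2 : tens g f (Fin.appendEquiv a b (y, z)) = g y * f z := by
    unfold tens
    simp [Fin.appendEquiv]
  rw [h2]
  ring

theorem bijective_split (a b : ℕ) :
    Function.Bijective (fun S : Finset (Fin (a + b)) => (sl S, sr S)) := by
  rw [Fintype.bijective_iff_injective_and_card]
  constructor
  · intro S T h
    simp only [Prod.mk.injEq] at h
    ext i
    refine Fin.addCases (fun j => ?_) (fun j => ?_) i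
    · have := Finset.ext_iff.1 h.1 j
      simpa [sl] using this
    · have := Finset.ext_iff.1 h.2 j
      simpa [sr] using this
  · simp [pow_add]

/-- The generating polynomial of the level sums. -/
def genPoly {n : ℕ} (f : Cube n → ℝ) : ℝ[X] :=
  ∑ S : Finset (Fin n), C (fourierCoeff f S) * X ^ S.card

theorem genPoly_coeff {n : ℕ} (f : Cube n → ℝ) (k : ℕ) :
    (genPoly f).coeff k = ∑ S ∈ powersetCard k (univ : Finset (Fin n)), fourierCoeff f S := by
  unfold genPoly
  rw [Polynomial.finsetSum_coeff]
  simp only [Polynomial.coeff_C_mul_X_pow]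
  rw [← Finset.sum_filter]
  refine Finset.sum_congr ?_ fun _ _ => rfl
  ext S
  simp only [Finset.mem_filter, Finset.mem_univ, true_and, Finset.mem_powersetCard,
    Finset.subset_univ]
  exact eq_comm

theorem genPoly_tens {a b : ℕ} (g : Cube a → ℝ) (f : Cube b → ℝ) :
    genPoly (tens g f) = genPoly g * genPoly f := by
  unfold genPoly
  rw [Finset.sum_mul_sum, ← Fintype.sum_prod_type']
  refine Fintype.sum_bijective _ (bijective_split a b) _ _ fun S => ?_
  rw [fourierCoeff_tens, card_eq S, C_mul, pow_add]
  ring

theorem degree_tens_le {a b : ℕ} (g : Cube a → ℝ) (f : Cube b → ℝ) :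
    Vale.Agent.P047.degree (tens g f) ≤ Vale.Agent.P047.degree g + Vale.Agent.P047.degree f := by
  refine Finset.sup_le fun S hS => ?_
  have h := (Finset.mem_filter.1 hS).2
  rw [fourierCoeff_tens] at h
  have h1 : fourierCoeff g (sl S) ≠ 0 := left_ne_zero_of_mul h
  have h2 : fourierCoeff f (sr S) ≠ 0 := right_ne_zero_of_mul h
  rw [card_eq S]
  exact Nat.add_le_add
    (Finset.le_sup (f := Finset.card) (Finset.mem_filter.2 ⟨Finset.mem_univ _, h1⟩))
    (Finset.le_sup (f := Finset.card) (Finset.mem_filter.2 ⟨Finset.mem_univ _, h2⟩))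

/-- `k`-fold power of an odd Boolean function. -/
theorem exists_power {m : ℕ} (hm : 1 ≤ m) {f : Cube m → ℝ} (hf : IsBoolean f)
    (hodd : ∀ x, f (fun i => - x i) = - f x) {D : ℕ} (hD : Vale.Agent.P047.degree f ≤ D) (k : ℕ) :
    ∃ n : ℕ, k ≤ n ∧ ∃ F : Cube n → ℝ, IsBoolean F ∧ Vale.Agent.P047.degree F ≤ k * D ∧
      (∀ x, F (fun i => - x i) = (-1) ^ k * F x) ∧
      (∀ S : Finset (Fin n), S.card < k → fourierCoeff F S = 0) ∧
      ∑ S ∈ powersetCard k (univ : Finset (Fin n)), fourierCoeff F S = linearSum f ^ k := by
  induction k with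
  | zero =>
    refine ⟨0, le_refl _, fun _ => 1, fun _ => Or.inl rfl, ?_, ?_, ?_, ?_⟩
    · have := growth_degree_le (n := 0) (BDeg.const (ι := Fin 0) (Ω := ℤˣ) 1 0)
      simpa using this
    · intro x; simp
    · intro S hS; omega
    · simp [fourierCoeff]
  | succ k ih =>
    obtain ⟨n, hn, F, hF, hdeg, hpar, hlow, hsum⟩ := ih
    have hf0 : fourierCoeff f ∅ = 0 := by
      have h1 := cubeAvg_neg_invariant (κ := Fin m) f
      have h2 : cubeAvg (fun x : Cube m => f (fun i => - x i)) = - cubeAvg f := by
        unfold cubeAvg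
        rw [← neg_div, ← Finset.sum_neg_distrib]
        congr 1
        exact Finset.sum_congr rfl fun x _ => hodd x
      rw [h2] at h1
      have h3 : fourierCoeff f ∅ = cubeAvg f := by
        unfold fourierCoeff cubeAvg
        simp
      rw [h3]
      linarith
    refine ⟨n + m, by omega, tens F f, ?_, ?_, ?_, ?_, ?_⟩
    · intro x
      unfold tens
      rcases hF (fun i => x (Fin.castAdd m i)) with h | h <;>
        rcases hf (fun i => x (Fin.natAdd n i)) with h' | h' <;> rw [h, h'] <;> norm_num
    · refine (degree_tens_le F f).trans ?_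
      rw [Nat.succ_mul]
      exact Nat.add_le_add hdeg hD
    · intro x
      unfold tens
      have h1 := hpar (fun i => x (Fin.castAdd m i))
      have h2 := hodd (fun i => x (Fin.natAdd n i))
      rw [h1, h2, pow_succ]
      ring
    · intro S hS
      rw [fourierCoeff_tens]
      rw [card_eq S] at hS
      by_cases h : (sl S).card < k
      · rw [hlow _ h, zero_mul]
      · have h0 : (sr S).card = 0 := by omega
        rw [Finset.card_eq_zero.1 h0, hf0, mul_zero]
    · rw [← genPoly_coeff, genPoly_tens, Polynomial.coeff_mul]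
      rw [Finset.sum_eq_single (k, 1)]
      · simp only
        rw [genPoly_coeff, genPoly_coeff, hsum, pow_succ]
        congr 1
        unfold linearSum
        rw [Finset.powersetCard_one, Finset.sum_map]
        rfl
      · rintro ⟨i, j⟩ hij hne
        have hij' : i + j = k + 1 := by simpa using hij
        by_cases hi : i < k
        · have : (genPoly F).coeff i = 0 := by
            rw [genPoly_coeff]
            refine Finset.sum_eq_zero fun S hS => hlow S ?_
            rw [(Finset.mem_powersetCard.1 hS).2]
            exact hi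
          simp only [this, zero_mul]
        · have hj : j = 0 := by
            by_contra hj
            apply hne
            have : i = k ∧ j = 1 := by omega
            rw [this.1, this.2]
          subst hj
          have : (genPoly f).coeff 0 = 0 := by
            rw [genPoly_coeff, Finset.powersetCard_zero, Finset.sum_singleton, hf0]
          simp only [this, mul_zero]
      · intro h
        exact absurd (by simp) h

end

end Vale.Agent.P047.H671
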