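import Vale.Agent.P047.H671.Levels

/-!
The square-root bound fails at every Fourier level.
-/

open Finset Filter
open scoped Topology

namespace Vale.Agent.P047.H671

noncomputable section

open H594

theorem oddExt_boolean {n : ℕ} {f : Cube n → ℝ} (hf : IsBoolean f) :
    IsBoolean (n := n + 1) (oddExt f) := by
  intro x
  unfold oddExt
  have h0 : ((x 0 : ℤ) : ℝ) = 1 ∨ ((x 0 : ℤ) : ℝ) = -1 := by
    rcases Int.units_eq_one_or (x 0) with h' | h' <;> rw [h'] <;> norm_num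
  rcases hf (fun i => x 0 * x i.succ) with h | h <;> rcases h0 with h' | h' <;>
    rw [h, h'] <;> norm_num

theorem linearSum_oddExt {n : ℕ} (f : Cube n → ℝ) :
    linearSum (n := n + 1) (oddExt f) = fourierCoeff f ∅ + linearSum f := by
  rw [growth_linearSum, cubeAvg_oddExt_mul]

/-- A Boolean function of degree at most `d` gives an odd one of degree at most `d + 1`. -/
theorem exists_odd {n : ℕ} {f : Cube n → ℝ} (hf : IsBoolean f) {d : ℕ} (hd : degree f ≤ d) :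
    ∃ m : ℕ, 1 ≤ m ∧ ∃ g : Cube m → ℝ, IsBoolean g ∧ degree g ≤ d + 1 ∧
      (∀ x, g (fun i => - x i) = - g x) ∧ linearSum f ≤ linearSum g := by
  by_cases h : 0 ≤ fourierCoeff f ∅
  · refine ⟨n + 1, by omega, oddExt f, oddExt_boolean hf,
      growth_degree_le (bdeg_oddExt (bdeg_of_degree hd)), oddExt_neg f, ?_⟩
    rw [linearSum_oddExt]
    linarith
  · push Not at h
    refine ⟨n + 1, by omega, oddExt (refl f), oddExt_boolean (refl_boolean hf),
      growth_degree_le (bdeg_oddExt (bdeg_of_degree (by rw [degree_refl]; exact hd))),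
      oddExt_neg _, ?_⟩
    rw [linearSum_oddExt, linearSum_refl, fourierCoeff_refl]
    simp only [Finset.card_empty, zero_add, pow_one]
    linarith

theorem exists_odd_one : ∃ m : ℕ, 1 ≤ m ∧ ∃ g : Cube m → ℝ, IsBoolean g ∧ degree g ≤ 1 ∧
      (∀ x, g (fun i => - x i) = - g x) ∧ 1 ≤ linearSum g := by
  have hB : IsBoolean (n := 0) (fun _ => (1 : ℝ)) := fun _ => Or.inl rfl
  have hd : degree (n := 0) (fun _ => (1 : ℝ)) ≤ 0 :=
    growth_degree_le (n := 0) (BDeg.const (ι := Fin 0) (Ω := ℤˣ) 1 0)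
  refine ⟨1, le_refl _, oddExt (n := 0) (fun _ => (1 : ℝ)), oddExt_boolean hB,
    growth_degree_le (bdeg_oddExt (bdeg_of_degree hd)), oddExt_neg _, ?_⟩
  rw [linearSum_oddExt]
  simp [fourierCoeff, linearSum]

/-- Odd Boolean functions with large linear sum. -/
theorem exists_odd_growth {s c : ℝ} (hs : 0 < s) (hc : 0 < c)
    (h : ∀ d : ℕ, 1 ≤ d → ∃ n : ℕ, 1 ≤ n ∧ ∃ f : Cube n → ℝ,
      IsBoolean f ∧ degree f ≤ d ∧ c * (d : ℝ) ^ s ≤ linearSum f) :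
    ∃ c' : ℝ, 0 < c' ∧ ∀ d : ℕ, 1 ≤ d → ∃ n : ℕ, 1 ≤ n ∧ ∃ f : Cube n → ℝ,
      IsBoolean f ∧ degree f ≤ d ∧ (∀ x, f (fun i => - x i) = - f x) ∧
      c' * (d : ℝ) ^ s ≤ linearSum f := by
  have h2 : (0 : ℝ) < (1 / 2 : ℝ) ^ s := by positivity
  refine ⟨min 1 (c * (1 / 2 : ℝ) ^ s), lt_min one_pos (mul_pos hc h2), fun d hd => ?_⟩
  rcases Nat.lt_or_ge d 2 with hd2 | hd2
  · have : d = 1 := by omega
    subst this
    obtain ⟨m, hm, g, h1, h2, h3, h4⟩ := exists_odd_one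
    refine ⟨m, hm, g, h1, h2, h3, ?_⟩
    simp only [Nat.cast_one, Real.one_rpow, mul_one]
    exact (min_le_left _ _).trans h4
  · obtain ⟨n, _, f, hf, hdeg, hlin⟩ := h (d - 1) (by omega)
    obtain ⟨m, hm, g, h1, h2', h3, h4⟩ := exists_odd hf hdeg
    refine ⟨m, hm, g, h1, by omega, h3, ?_⟩
    refine le_trans ?_ (hlin.trans h4)
    have hd0 : (0 : ℝ) ≤ d := Nat.cast_nonneg d
    have h5 : (1 / 2 : ℝ) * d ≤ ((d - 1 : ℕ) : ℝ) := by
      rw [Nat.cast_sub (by omega)]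
      have : (2 : ℝ) ≤ d := by exact_mod_cast hd2
      push_cast
      linarith
    calc min 1 (c * (1 / 2 : ℝ) ^ s) * (d : ℝ) ^ s
        ≤ c * (1 / 2 : ℝ) ^ s * (d : ℝ) ^ s :=
          mul_le_mul_of_nonneg_right (min_le_right _ _) (Real.rpow_nonneg hd0 _)
      _ = c * ((1 / 2 : ℝ) * d) ^ s := by
          rw [Real.mul_rpow (by norm_num) hd0]
          ring
      _ ≤ c * ((d - 1 : ℕ) : ℝ) ^ s :=
          mul_le_mul_of_nonneg_left
            (Real.rpow_le_rpow (by positivity) h5 hs.le) hc.le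

/-- Large sums of Fourier coefficients on every level. -/
theorem levels :
    ∃ ε : ℝ, 0 < ε ∧ ∃ c : ℝ, 0 < c ∧ ∀ k d : ℕ, 1 ≤ k → k ≤ d →
      ∃ n : ℕ, 1 ≤ n ∧ ∃ f : Cube n → ℝ, IsBoolean f ∧ degree f ≤ d ∧
        (∀ x, f (fun i => - x i) = (-1) ^ k * f x) ∧
        (∀ S : Finset (Fin n), S.card < k → fourierCoeff f S = 0) ∧
        (c * ((d : ℝ) / k) ^ (1 / 2 + ε)) ^ k ≤
          ∑ S ∈ powersetCard k (univ : Finset (Fin n)), fourierCoeff f S := by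
  obtain ⟨⟨ε, hε, c, hc, h⟩, _⟩ := Vale.Agent.P047.main
  have hs : (0 : ℝ) < 1 / 2 + ε := by linarith
  obtain ⟨c', hc', h'⟩ := exists_odd_growth hs hc h
  have h2 : (0 : ℝ) < (1 / 2 : ℝ) ^ (1 / 2 + ε) := by positivity
  refine ⟨ε, hε, c' * (1 / 2 : ℝ) ^ (1 / 2 + ε), mul_pos hc' h2, fun k d hk hkd => ?_⟩
  have hD : 1 ≤ d / k := (Nat.one_le_div_iff (by omega)).2 hkd
  obtain ⟨m, hm, f, hf, hdeg, hodd, hlin⟩ := h' (d / k) hD
  obtain ⟨n, hn, F, hF, hFd, hpar, hlow, hsum⟩ := exists_power hm hf hodd hdeg k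
  refine ⟨n, by omega, F, hF, hFd.trans (Nat.mul_div_le d k), hpar, hlow, ?_⟩
  rw [hsum]
  have hk0 : (0 : ℝ) < k := by exact_mod_cast (by omega : 0 < k)
  have hdk : (0 : ℝ) ≤ (d : ℝ) / k := by positivity
  have h3 : (1 / 2 : ℝ) * ((d : ℝ) / k) ≤ ((d / k : ℕ) : ℝ) := by
    have h4 : d < k * (d / k + 1) := by
      rw [mul_comm]
      exact Nat.lt_mul_of_div_lt (Nat.lt_succ_self _) (by omega)
    have h5 : (d : ℝ) < k * (((d / k : ℕ) : ℝ) + 1) := by exact_mod_cast h4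
    have h6 : (1 : ℝ) ≤ ((d / k : ℕ) : ℝ) := by exact_mod_cast hD
    have h7 : (d : ℝ) / k < ((d / k : ℕ) : ℝ) + 1 := by
      rw [div_lt_iff₀ hk0]
      linarith
    linarith
  refine pow_le_pow_left₀ (by positivity) ?_ k
  refine le_trans ?_ hlin
  calc c' * (1 / 2 : ℝ) ^ (1 / 2 + ε) * ((d : ℝ) / k) ^ (1 / 2 + ε)
      = c' * ((1 / 2 : ℝ) * ((d : ℝ) / k)) ^ (1 / 2 + ε) := by
        rw [Real.mul_rpow (by norm_num) hdk]
        ring
    _ ≤ c' * ((d / k : ℕ) : ℝ) ^ (1 / 2 + ε) :=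
        mul_le_mul_of_nonneg_left (Real.rpow_le_rpow (by positivity) h3 hs.le) hc'.le

/-- No square-root bound on any level. -/
theorem no_level_bound (k : ℕ) (hk : 1 ≤ k) :
    ¬ ∃ C : ℝ, ∀ n : ℕ, 1 ≤ n → ∀ f : Cube n → ℝ, IsBoolean f →
      ∑ S ∈ powersetCard k (univ : Finset (Fin n)), |fourierCoeff f S| ≤
        C * Real.sqrt (degree f) ^ k := by
  rintro ⟨C, hC⟩
  obtain ⟨ε, hε, c, hc, h⟩ := levels
  have hk0 : (0 : ℝ) < k := by exact_mod_cast (by omega : 0 < k)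
  have hK : (0 : ℝ) < c / (k : ℝ) ^ (1 / 2 + ε) := by positivity
  have hlim : Tendsto (fun d : ℕ => (c / (k : ℝ) ^ (1 / 2 + ε) * (d : ℝ) ^ ε) ^ k) atTop atTop :=
    (tendsto_pow_atTop (by omega : k ≠ 0)).comp
      (Tendsto.const_mul_atTop hK ((tendsto_rpow_atTop hε).comp tendsto_natCast_atTop_atTop))
  obtain ⟨d, hd, hd1⟩ := ((hlim.eventually_gt_atTop (max C 0)).and
    (eventually_ge_atTop k)).exists
  obtain ⟨n, hn, f, hf, hdeg, _, _, hlin⟩ := h k d hk hd1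
  have hd0 : (0 : ℝ) < d := by exact_mod_cast (by omega : 0 < d)
  have hsq : 0 < Real.sqrt d := Real.sqrt_pos.mpr hd0
  have h1 := hC n hn f hf
  have h2 : C * Real.sqrt (degree f) ^ k ≤ max C 0 * Real.sqrt d ^ k := by
    have h3 : Real.sqrt (degree f) ^ k ≤ Real.sqrt d ^ k :=
      pow_le_pow_left₀ (Real.sqrt_nonneg _) (Real.sqrt_le_sqrt (by exact_mod_cast hdeg)) k
    calc C * Real.sqrt (degree f) ^ k ≤ max C 0 * Real.sqrt (degree f) ^ k :=
          mul_le_mul_of_nonneg_right (le_max_left _ _) (by positivity)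
      _ ≤ max C 0 * Real.sqrt d ^ k := mul_le_mul_of_nonneg_left h3 (le_max_right _ _)
  have h4 : ∑ S ∈ powersetCard k (univ : Finset (Fin n)), fourierCoeff f S ≤
      ∑ S ∈ powersetCard k (univ : Finset (Fin n)), |fourierCoeff f S| :=
    Finset.sum_le_sum fun S _ => le_abs_self _
  have h5 : (c * ((d : ℝ) / k) ^ (1 / 2 + ε)) ^ k =
      (c / (k : ℝ) ^ (1 / 2 + ε) * (d : ℝ) ^ ε) ^ k * Real.sqrt d ^ k := by
    rw [← mul_pow]
    congr 1
    rw [Real.div_rpow hd0.le hk0.le, Real.rpow_add hd0, ← Real.sqrt_eq_rpow]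
    ring
  have h6 : 0 < Real.sqrt d ^ k := by positivity
  have h7 : max C 0 * Real.sqrt d ^ k <
      (c / (k : ℝ) ^ (1 / 2 + ε) * (d : ℝ) ^ ε) ^ k * Real.sqrt d ^ k :=
    mul_lt_mul_of_pos_right hd h6
  linarith

end

end Vale.Agent.P047.H671
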